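import Crest.Agent.X212.Sard93.Smale
import Crest.Agent.X212.Par72.Reg
import Crest.Agent.X212.Fred93.Basic

/-! Generic parity for solution sets that are only described by LOCAL models (no atlas, no
transition maps): regularity for a residual set of parameters, emptiness for negative index,
parity of the two ends for index one. -/

set_option autoImplicit false
set_option linter.unusedSectionVars false

noncomputable section

open Set Filter Topology Function Module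
open scoped ContDiff

namespace Crest.Agent.X212.Cone

open Sard93 (dE)
open Fred93 (Fr)

/-- the inverse of a chart, restricted to a subset, is an open embedding into the subset -/
theorem emb {A B : Type*} [TopologicalSpace A] [TopologicalSpace B]
    (ψ : OpenPartialHomeomorph A B) (s : Set A) :
    IsOpenEmbedding (fun y : ↥(ψ.target ∩ ψ.symm ⁻¹' s) => (⟨ψ.symm y, y.2.2⟩ : s)) := by
  refine IsOpenEmbedding.of_continuous_injective_isOpenMap ?_ ?_ ?_
  · exact (ψ.continuousOn_symm.comp_continuous continuous_subtype_val fun y => y.2.1).subtype_mk _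
  · intro y y' h
    exact Subtype.ext (ψ.symm.injOn y.2.1 y'.2.1 (congrArg Subtype.val h))
  · intro O hO
    obtain ⟨O', hO', rfl⟩ := isOpen_induced_iff.1 hO
    have := (ψ.isOpen_inter_preimage hO').preimage (continuous_subtype_val (p := (· ∈ s)))
    convert this using 1
    ext x
    constructor
    · rintro ⟨y, hy, rfl⟩
      refine ⟨ψ.map_target y.2.1, ?_⟩
      show ψ (ψ.symm y) ∈ O'
      rw [ψ.right_inv y.2.1]
      exact hy
    · rintro ⟨h1, h2⟩
      refine ⟨⟨ψ x, ψ.map_source h1, ?_⟩, h2, Subtype.ext (ψ.left_inv h1)⟩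
      show ψ.symm (ψ x) ∈ s
      rw [ψ.left_inv h1]
      exact x.2

theorem exists_restr {A B : Type*} [TopologicalSpace A] [TopologicalSpace B]
    (ψ : OpenPartialHomeomorph A B) {s : Set A} (x : s) (hx : (x : A) ∈ ψ.source) :
    ∃ φ : OpenPartialHomeomorph s ↥(ψ.target ∩ ψ.symm ⁻¹' s), x ∈ φ.source ∧
      ∀ y ∈ φ.source, (y : A) ∈ ψ.source ∧ (φ y : B) = ψ y := by
  let x' : ↥(ψ.target ∩ ψ.symm ⁻¹' s) := ⟨ψ x, ψ.map_source hx, by
    show ψ.symm (ψ x) ∈ s
    rw [ψ.left_inv hx]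
    exact x.2⟩
  have : Nonempty ↥(ψ.target ∩ ψ.symm ⁻¹' s) := ⟨x'⟩
  let J := (emb ψ s).toOpenPartialHomeomorph _
  refine ⟨J.symm, ?_, fun y hy => ?_⟩
  · have h := J.map_source (x := x') (mem_univ _)
    have e : J x' = x := Subtype.ext (ψ.left_inv hx)
    rwa [e] at h
  · have h : ψ.symm (J.symm y) = y := congrArg Subtype.val (J.right_inv hy)
    have h2 := (J.symm y).2.1
    exact ⟨h ▸ ψ.map_target h2, by rw [← h, ψ.right_inv h2]⟩

/-- a local model: a chart of `X` and a smooth equation in the chart -/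
structure Mdl (X E Λ G : Type*) [TopologicalSpace X] [NormedAddCommGroup E] [NormedSpace ℝ E]
    [NormedAddCommGroup Λ] [NormedSpace ℝ Λ] [NormedAddCommGroup G] [NormedSpace ℝ G] where
  e : OpenPartialHomeomorph X E
  H : E × Λ → G
  U : Set (E × Λ)
  op : IsOpen U
  sm : ContDiffOn ℝ ∞ H U

variable {X : Type*} [TopologicalSpace X] {E Λ G K : Type*}
  [NormedAddCommGroup E] [NormedSpace ℝ E] [CompleteSpace E]
  [NormedAddCommGroup Λ] [NormedSpace ℝ Λ] [CompleteSpace Λ]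
  [NormedAddCommGroup G] [NormedSpace ℝ G] [CompleteSpace G]
  [NormedAddCommGroup K] [NormedSpace ℝ K] [FiniteDimensional ℝ K]

/-- `τ` is smooth in the chart `e` -/
def Sm (e : OpenPartialHomeomorph X E) (τ : X → K) : Prop :=
  ContDiffOn ℝ ∞ (τ ∘ e.symm) e.target

/-- the derivative of `τ` in the chart `e` -/
def dC (e : OpenPartialHomeomorph X E) (τ : X → K) (x : X) : E →L[ℝ] K :=
  fderiv ℝ (τ ∘ e.symm) (e x)

theorem Sm.at {e : OpenPartialHomeomorph X E} {τ : X → K} (h : Sm e τ) {x : X}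
    (hx : x ∈ e.source) : ContDiffAt ℝ ∞ (τ ∘ e.symm) (e x) :=
  h.contDiffAt (e.open_target.mem_nhds (e.map_source hx))

theorem Sm.has {e : OpenPartialHomeomorph X E} {τ : X → K} (h : Sm e τ) {x : X}
    (hx : x ∈ e.source) : HasFDerivAt (τ ∘ e.symm) (dC e τ x) (e x) :=
  ((h.at hx).differentiableAt (by simp)).hasFDerivAt

theorem Sm.continuousAt {e : OpenPartialHomeomorph X E} {τ : X → K} (h : Sm e τ) {x : X}
    (hx : x ∈ e.source) : ContinuousAt τ x := by
  refine ((h.at hx).continuousAt.comp (e.continuousAt hx)).congr ?_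
  filter_upwards [e.open_source.mem_nhds hx] with y hy
  simp [e.left_inv hy]

namespace Mdl

variable (M : Mdl X E Λ G)

/-- `M` describes `Z` near `z` and has index `n` there -/
def At (Z : Set (X × Λ)) (n : ℤ) (z : X × Λ) : Prop :=
  z.1 ∈ M.e.source ∧ (M.e z.1, z.2) ∈ M.U ∧ (∀ᶠ w in 𝓝 z, w ∈ Z ↔ M.H (M.e w.1, w.2) = 0) ∧
    Fr (dE M.H (M.e z.1, z.2)) n

/-- the full derivative is onto, also on the level sets of `τ` -/
def Full (τ : X → K) (z : X × Λ) : Prop :=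
  ∀ g k, ∃ ξ l, fderiv ℝ M.H (M.e z.1, z.2) (ξ, l) = g ∧ dC M.e τ z.1 ξ = k

/-- the derivative at fixed parameter is onto, also on the level sets of `τ` -/
def Part (τ : X → K) (z : X × Λ) : Prop :=
  Surjective ((dE M.H (M.e z.1, z.2)).prod (dC M.e τ z.1))

variable {M}

theorem tendsto_chart {z : X × Λ} (h : z.1 ∈ M.e.source) :
    ContinuousAt (fun w : X × Λ => (M.e w.1, w.2)) z :=
  (ContinuousAt.comp (f := Prod.fst) (M.e.continuousAt h) continuousAt_fst).prodMk continuousAt_snd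

theorem At.eventually {Z : Set (X × Λ)} {n : ℤ} {z : X × Λ} (h : M.At Z n z) :
    ∀ᶠ w in 𝓝 z, M.At Z n w := by
  obtain ⟨h1, h2, h3, h4⟩ := h
  have hc := tendsto_chart (M := M) h1
  have h5 : ContinuousAt (dE M.H) (M.e z.1, z.2) :=
    ((M.sm.continuousOn_fderiv_of_isOpen M.op (by simp)).continuousAt
      (M.op.mem_nhds h2)).clm_comp continuousAt_const
  have h6 : ∀ᶠ w in 𝓝 z, Fr (dE M.H (M.e w.1, w.2)) n :=
    (ContinuousAt.comp (f := fun w : X × Λ => (M.e w.1, w.2)) h5 hc).eventually h4.eventually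
  filter_upwards [continuousAt_fst.eventually (M.e.open_source.mem_nhds h1),
    hc.eventually (M.op.mem_nhds h2), h3.eventually_nhds, h6] with w a b c d using ⟨a, b, c, d⟩

theorem At.strict {Z : Set (X × Λ)} {n : ℤ} {z : X × Λ} (h : M.At Z n z) :
    HasStrictFDerivAt (fun ξ => M.H (ξ, z.2)) (dE M.H (M.e z.1, z.2)) (M.e z.1) := by
  have h1 := (M.sm.contDiffAt (M.op.mem_nhds h.2.1)).hasStrictFDerivAt (by simp)
  exact h1.comp (M.e z.1) ((hasStrictFDerivAt_id _).prodMk (hasStrictFDerivAt_const _ _))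

theorem At.near {Z : Set (X × Λ)} {n : ℤ} {x : X} {l : Λ} (h : M.At Z n (x, l)) :
    ∀ᶠ ξ in 𝓝 (M.e x), ξ ∈ M.e.target ∩ M.e.symm ⁻¹' {y | (y, l) ∈ Z} ↔ M.H (ξ, l) = 0 := by
  have h1 : ContinuousAt (fun ξ => (M.e.symm ξ, l)) (M.e x) :=
    (M.e.continuousAt_symm (M.e.map_source h.1)).prodMk continuousAt_const
  have h2 := h.2.2.1
  rw [show (x, l) = (M.e.symm (M.e x), l) by rw [M.e.left_inv h.1]] at h2
  filter_upwards [h1.eventually h2, M.e.open_target.mem_nhds (M.e.map_source h.1)] with ξ a b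
  simp only [M.e.right_inv b] at a
  exact ⟨fun c => a.1 c.2, fun c => ⟨b, a.2 c⟩⟩

end Mdl

variable [SecondCountableTopology X] [SecondCountableTopology Λ]

/-- **Generic regularity.** -/
theorem reg (E G : Type*) [NormedAddCommGroup E] [NormedSpace ℝ E] [CompleteSpace E]
    [NormedAddCommGroup G] [NormedSpace ℝ G] [CompleteSpace G]
    {Z S : Set (X × Λ)} {τ : X → K} {k : K} {n : ℤ} (P : Mdl X E Λ G → Prop)
    (hS : ∀ z ∈ S, z ∈ Z ∧ τ z.1 = k ∧ ∃ M, P M ∧ M.At Z n z ∧ Sm M.e τ ∧ M.Full τ z) :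
    ∀ᶠ l in residual Λ, ∀ x, (x, l) ∈ S →
      ∃ M, P M ∧ M.At Z n (x, l) ∧ Sm M.e τ ∧ M.Part τ (x, l) := by
  have : CompleteSpace K := FiniteDimensional.complete ℝ K
  have h : ∀ z ∈ S, ∃ N ∈ 𝓝 z, ∀ᶠ l in residual Λ, ∀ x, (x, l) ∈ N → (x, l) ∈ S →
      ∃ M, P M ∧ M.At Z n (x, l) ∧ Sm M.e τ ∧ M.Part τ (x, l) := by
    intro z hz
    obtain ⟨hZ, hk, M, hP, hA, hs, hF⟩ := hS z hz
    let Φ : E × Λ → G × K := fun w => (M.H w, (τ ∘ M.e.symm) w.1 - k)
    have hU : IsOpen (M.U ∩ Prod.fst ⁻¹' M.e.target) :=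
      M.op.inter (M.e.open_target.preimage continuous_fst)
    have hΦ : ContDiffOn ℝ ∞ Φ (M.U ∩ Prod.fst ⁻¹' M.e.target) :=
      (M.sm.mono inter_subset_left).prodMk
        ((ContDiffOn.comp hs contDiff_fst.contDiffOn fun w hw => hw.2).sub contDiffOn_const)
    have hd : ∀ w : X × Λ, M.At Z n w → ∀ v, fderiv ℝ Φ (M.e w.1, w.2) v =
        (fderiv ℝ M.H (M.e w.1, w.2) v, dC M.e τ w.1 v.1) := fun w hw v => by
      have h1 := ((M.sm.contDiffAt (M.op.mem_nhds hw.2.1)).differentiableAt (by simp)).hasFDerivAt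
      have h2 := (HasFDerivAt.comp (f := Prod.fst) (M.e w.1, w.2) (hs.has hw.1) hasFDerivAt_fst).sub_const k
      have h3 : HasFDerivAt Φ _ (M.e w.1, w.2) := h1.prodMk h2
      rw [h3.fderiv]
      rfl
    have hdE : ∀ w : X × Λ, M.At Z n w → dE Φ (M.e w.1, w.2) =
        (dE M.H (M.e w.1, w.2)).prod (dC M.e τ w.1) := fun w hw =>
      ContinuousLinearMap.ext fun v => hd w hw (v, 0)
    have h0 : ∀ w ∈ S, M.At Z n w → Φ (M.e w.1, w.2) = 0 := fun w hw hA => by
      refine Prod.ext (hA.2.2.1.self_of_nhds.1 (hS w hw).1) ?_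
      simp [Φ, M.e.left_inv hA.1, (hS w hw).2.1]
    obtain ⟨N, hN, hres⟩ := Sard93.param_loc hU hΦ (z := (M.e z.1, z.2))
      ⟨hA.2.1, M.e.map_source hA.1⟩ (h0 z hz hA) (by rw [hdE z hA]; exact (hA.2.2.2.prod _).1)
      (by
        rintro ⟨g, k'⟩
        obtain ⟨ξ, l, h1, h2⟩ := hF g k'
        exact ⟨(ξ, l), by rw [hd z hA, h1, h2]⟩)
    refine ⟨_, inter_mem hA.eventually ((Mdl.tendsto_chart hA.1).preimage_mem_nhds hN), ?_⟩
    filter_upwards [hres] with l hl x hx hxS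
    refine ⟨M, hP, hx.1, hs, ?_⟩
    have := hl (M.e x) hx.2 (h0 _ hxS hx.1)
    rwa [hdE (x, l) hx.1] at this
  choose! N hN hres using h
  obtain ⟨s, hc, hs, hcov⟩ := (HereditarilyLindelofSpace.isLindelof S).elim_nhds_subcover N hN
  have := (eventually_countable_ball hc).2 fun z hz => hres z (hs z hz)
  filter_upwards [this] with p hp x hx
  obtain ⟨z, hz, hxz⟩ := mem_iUnion₂.1 (hcov hx)
  exact hp z hz x hxz hx

/-- **Negative index: empty.** -/
theorem empty (E G : Type*) [NormedAddCommGroup E] [NormedSpace ℝ E] [CompleteSpace E]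
    [NormedAddCommGroup G] [NormedSpace ℝ G] [CompleteSpace G]
    {Z S : Set (X × Λ)} {τ : X → K} {k : K} {n : ℤ} (hn : n < finrank ℝ K)
    (hS : ∀ z ∈ S, z ∈ Z ∧ τ z.1 = k ∧ ∃ M : Mdl X E Λ G, M.At Z n z ∧ Sm M.e τ ∧ M.Full τ z) :
    ∀ᶠ l in residual Λ, ∀ x, (x, l) ∉ S := by
  filter_upwards [reg E G (fun _ => True) (Z := Z) (S := S) (τ := τ) (k := k) (n := n)
    fun z hz => by simpa using hS z hz] with l hl x hx
  obtain ⟨M, -, h1, -, h2⟩ := hl x hx
  have := (h1.2.2.2.prod (dC M.e τ x)).nonneg_of_surj h2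
  omega

theorem sm_zero (e : OpenPartialHomeomorph X E) : Sm e (fun _ => (0 : Fin 0 → ℝ)) :=
  contDiffOn_const (c := (0 : Fin 0 → ℝ))

/-- negative index without side condition -/
theorem empty₀ (E G : Type*) [NormedAddCommGroup E] [NormedSpace ℝ E] [CompleteSpace E]
    [NormedAddCommGroup G] [NormedSpace ℝ G] [CompleteSpace G]
    {Z S : Set (X × Λ)} {n : ℤ} (hn : n < 0)
    (hS : ∀ z ∈ S, z ∈ Z ∧ ∃ M : Mdl X E Λ G, M.At Z n z ∧
      Surjective (fderiv ℝ M.H (M.e z.1, z.2))) :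
    ∀ᶠ l in residual Λ, ∀ x, (x, l) ∉ S := by
  refine empty E G (Z := Z) (τ := fun _ => (0 : Fin 0 → ℝ)) (k := 0) (n := n) (by simpa using hn)
    fun z hz => ?_
  obtain ⟨h1, M, h2, h3⟩ := hS z hz
  refine ⟨h1, rfl, M, h2, sm_zero _, fun g k => ?_⟩
  obtain ⟨v, hv⟩ := h3 g
  exact ⟨v.1, v.2, hv, Subsingleton.elim _ _⟩

/-- the solutions at parameter `l` and time `a` -/
def lev (Z : Set (X × Λ)) (t : X → ℝ) (l : Λ) (a : ℝ) : Set X := {x | (x, l) ∈ Z ∧ t x = a}

/-- **Index one: parity of the two ends.** -/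
theorem par (E G : Type*) [NormedAddCommGroup E] [NormedSpace ℝ E] [CompleteSpace E]
    [NormedAddCommGroup G] [NormedSpace ℝ G] [CompleteSpace G] [T2Space X]
    {Z : Set (X × Λ)} {t : X → ℝ} (P : Mdl X E Λ G → Prop)
    (hS : ∀ z ∈ Z, t z.1 ∈ Icc (0 : ℝ) 1 → ∃ M, P M ∧ M.At Z 1 z ∧ Sm M.e t ∧ M.Full t z) :
    ∀ᶠ l in residual Λ,
      (∀ x, (x, l) ∈ Z → t x = 0 ∨ t x = 1 →
        ∃ M, P M ∧ M.At Z 1 (x, l) ∧ Sm M.e t ∧
          Bijective ((dE M.H (M.e x, l)).prod (dC M.e t x))) ∧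
      (IsCompact {x | (x, l) ∈ Z ∧ t x ∈ Icc (0 : ℝ) 1} →
        (lev Z t l 0).Finite ∧ (lev Z t l 1).Finite ∧
          (lev Z t l 0).ncard ≡ (lev Z t l 1).ncard [MOD 2]) := by
  have r0 := reg E G P (Z := Z) (S := {z ∈ Z | t z.1 = 0}) (τ := t) (k := 0) (n := 1)
    fun z hz => ⟨hz.1, hz.2, hS z hz.1 (by rw [hz.2]; simp)⟩
  have r1 := reg E G P (Z := Z) (S := {z ∈ Z | t z.1 = 1}) (τ := t) (k := 1) (n := 1)
    fun z hz => ⟨hz.1, hz.2, hS z hz.1 (by rw [hz.2]; simp)⟩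
  have r2 := reg E G (fun M : Mdl X E Λ G => Sm M.e t) (Z := Z)
    (S := {z ∈ Z | t z.1 ∈ Icc (0 : ℝ) 1}) (τ := fun _ => (0 : Fin 0 → ℝ)) (k := 0) (n := 1)
    fun z hz => by
      obtain ⟨M, -, h1, h2, h3⟩ := hS z hz.1 hz.2
      refine ⟨hz.1, rfl, M, h2, h1, sm_zero _, fun g k => ?_⟩
      obtain ⟨ξ, l, h, -⟩ := h3 g 0
      exact ⟨ξ, l, h, Subsingleton.elim _ _⟩
  filter_upwards [r0, r1, r2] with l h0 h1 h2
  have hend : ∀ x, (x, l) ∈ Z → t x = 0 ∨ t x = 1 → ∃ M, P M ∧ M.At Z 1 (x, l) ∧ Sm M.e t ∧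
      Bijective ((dE M.H (M.e x, l)).prod (dC M.e t x)) := by
    intro x hx ht
    obtain ⟨M, a, b, c, d⟩ := ht.elim (fun h => h0 x ⟨hx, h⟩) fun h => h1 x ⟨hx, h⟩
    exact ⟨M, a, b, c, ((b.2.2.2.prod (dC M.e t x)).cast (by simp)).inj_of_surj d, d⟩
  refine ⟨hend, fun hc => ?_⟩
  let s : Set X := {y | (y, l) ∈ Z}
  have him : ∀ A : Set ℝ, Subtype.val '' ((fun x : s => t x) ⁻¹' A) =
      {x | (x, l) ∈ Z ∧ t x ∈ A} := fun A => by
    ext x
    exact ⟨by rintro ⟨y, hy, rfl⟩; exact ⟨y.2, hy⟩, fun h => ⟨⟨x, h.1⟩, h.2, rfl⟩⟩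
  have H := Par72.fibre_modEq (fun x : s => t x) zero_lt_one
    (by rw [Subtype.isCompact_iff, him]; exact hc)
    (fun x hx => by
      obtain ⟨M, a, b, -⟩ := h2 x ⟨x.2, hx⟩
      exact ContinuousAt.comp (f := Subtype.val) (a.continuousAt b.1) continuousAt_subtype_val)
    (fun x hx => by
      obtain ⟨M, -, b, -, d⟩ := h2 x ⟨x.2, Ioo_subset_Icc_self hx⟩
      have hs : Surjective (dE M.H (M.e x, l)) := fun g => by
        obtain ⟨v, hv⟩ := d (g, 0)
        exact ⟨v, congrArg Prod.fst hv⟩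
      obtain ⟨φ, p, q⟩ := exists_restr M.e x b.1
      have hm := (φ x).2
      rw [(q x p).2] at hm
      obtain ⟨e', he'⟩ := Par72.chart_of_ker b.strict hs
        (by exact_mod_cast b.2.2.2.finrank_ker hs) hm b.near
      refine ⟨φ.trans e', p, ?_⟩
      show φ x ∈ e'.source
      convert he' using 1
      exact Subtype.ext (q x p).2)
    (fun x hx => by
      obtain ⟨M, -, b, c, d⟩ := hend x x.2 hx
      obtain ⟨φ, p, q⟩ := exists_restr M.e x b.1
      have hm := (φ x).2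
      rw [(q x p).2] at hm
      have h3 := Par72.tr_of_bij b.strict
        ((c.at b.1).hasStrictFDerivAt (by simp)) d hm b.near
      rw [show (⟨M.e x, hm⟩ : ↥(M.e.target ∩ M.e.symm ⁻¹' s)) = φ x from
        Subtype.ext (q x p).2.symm] at h3
      refine (h3.comp φ p).congr ?_
      filter_upwards [φ.open_source.mem_nhds p] with y hy
      simp [(q y hy).2, M.e.left_inv (q y hy).1])
  have e0 : ∀ a, lev Z t l a = Subtype.val '' ((fun x : s => t x) ⁻¹' {a}) := fun a =>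
    (him {a}).symm
  rw [e0, e0, ncard_image_of_injective _ Subtype.val_injective,
    ncard_image_of_injective _ Subtype.val_injective]
  exact ⟨H.1.image _, H.2.1.image _, H.2.2⟩

end Crest.Agent.X212.Cone
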